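import Vale.Agent.P141.H222.NumOf
import Vale.Agent.P141.H329.WinS
import Vale.Agent.P141.H736.FixBD
import Vale.Agent.P141.H74.CutBC
import Vale.Agent.P141.H652.NumR
import Vale.Agent.P141.H652.NumQ
import Vale.Agent.P141.H302.BornU
import Vale.Agent.P141.H548.LagU
import Vale.Agent.P141.H989.CrB3

/-!
# P141, line (A), increasing part: the leaf `LBCg`
-/

set_option linter.unusedSectionVars false
set_option linter.unusedVariables false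

namespace Vale.Agent.P141.H854

open Finset Matrix
open Vale.Agent.P075 (Ix)
open Vale.Agent.P141.PL (Pt iv ix mem_iv ix_ix cx)
open Vale.Agent.P141.PL.H315 (Tri)
open Vale.Agent.P141.H48 (US ES BSl)
open Vale.Agent.P141.H103 (GW)
open Vale.Agent.P141.H305 (ClsM kapM)
open Vale.Agent.P141.H401 (StQ FibU FibP cb)
open Vale.Agent.P141.H677 (rt KT tr_T cP cP_pl)
open Vale.Agent.P141.H408
open Vale.Agent.P141.H505.Sk1 (eT Ch)
open Vale.Agent.P141.H808 (thS cS thS_pd)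
open Vale.Agent.P141.H886
open Vale.Agent.P141.H457 (rs PG Fv SD)
open Vale.Agent.P141.H874
open Vale.Agent.P141.H419.WFamR (Wn Dn En nmH nmD nmE nmB c1)
open Vale.Agent.P141.H912 (wS)
open Vale.Agent.P141.H302 (bN tS Pr)
open Vale.Agent.P141.H548 (vN oN chg kinds)
open Vale.Agent.P141.H652 (dB payS PbS)
open Vale.Agent.P141.H989.CrB (fCRB mB sumU_mB)
open Vale.Agent.P141.H170 (Win.cut)

noncomputable section

open scoped Classical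

/-- one lag -/
theorem at_lag {σ : ℝ} {f : ℕ → NumF} (H : SumL σ f) (l : ℕ) : SumU σ (f l) := by
  refine PairU.map (M := 1) zero_le_one H ?_
  intro ι _ _ p n ez F1 F2 F3 o K x s r U g u v Q1 Q2 Q3 X ht hs hr hez hX h
  have h1 := h l
  rwa [one_mul]

/-- the number of the second slot -/
def fE : NumF := fun ι _ _ p n ez F1 F2 F3 o K x s r U g u v Q1 Q2 Q3 x0 =>
  (∑ l ∈ range (K + 1), (3 / 4 : ℝ) ^ l * vN 0 l ι p n ez F1 F2 F3 o K x s r U g u v Q1 Q2 Q3 x0 +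
    ∑ l ∈ range (K + 1), (3 / 4 : ℝ) ^ l *
      bN (l + 1) ι p n ez F1 F2 F3 o K x s r U g u v Q1 Q2 Q3 x0) +
  ((oN 0 ι p n ez F1 F2 F3 o K x s r U g u v Q1 Q2 Q3 x0 +
    vN 1 0 ι p n ez F1 F2 F3 o K x s r U g u v Q1 Q2 Q3 x0) +
   (bN 0 ι p n ez F1 F2 F3 o K x s r U g u v Q1 Q2 Q3 x0 +
    fCRB mB ι p n ez F1 F2 F3 o K x s r U g u v Q1 Q2 Q3 x0))

/-- the number of the first slot -/
def fB : NumF := fun ι _ _ p n ez F1 F2 F3 o K x s r U g u v Q1 Q2 Q3 x0 =>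
    dB p s r U K x u F3 Q3 x0 +
      payS (beI p r) (p.lam s r) o K (cx K x) u (fun k => H652.bS p s r U K u F3 Q3 x0 k) x0

theorem sumU_fE : SumU 1 fE := by
  have h1 := H548.sumU_v (j := 0) (by norm_num)
  have h2 := H302.sumU_b1
  have h3 := at_lag H548.sumL_o 0
  have h4 := at_lag (H548.sumL_v (j := 1) le_rfl) 0
  have h5 := H302.sumU_b0
  have h6 := sumU_mB
  have h12 := SumU.add h1 h2
  have h34 := SumU.add h3 h4
  have h56 := SumU.add h5 h6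
  have h36 := SumU.add h34 h56
  exact SumU.add h12 h36

theorem sumU_fB : SumU (-1) fB := H652.EBU

section pt

variable {ι : Type} [Fintype ι] [DecidableEq ι] {p : H401.Num} {s r ez : ℝ} {o : ℤ} {K : ℕ}
  {x : Pt} {U : Tri} {u v : ℤ → ℤ → ι → ℝ} {F2 : ℕ → Pt → ℝ} {x0 : ℤ}

theorem dot_nn (a : ι → ℝ) : 0 ≤ a ⬝ᵥ a := sum_nonneg fun _ _ => mul_self_nonneg _

/-- one term of the variation -/
theorem chg_D (ht : 0 < p.t) (hs : 0 < s) (hr : 1 ≤ r) (a : ℕ) (x1 z : ℤ) (w : ι → ℝ) :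
    (beI p r)⁻¹ * ((H652.ah (p.lam s r) K (cx K x).2.1 (KT (p.lam s r) u x1) (o - 2) x0 x1 a
        (ix (a + 1) z) *ᵥ w) ⬝ᵥ
      (H652.ah (p.lam s r) K (cx K x).2.1 (KT (p.lam s r) u x1) (o - 2) x0 x1 a
        (ix (a + 1) z) *ᵥ w)) ≤
      chg p s r o K x u x0 a x1 z w + kinds p s r o K x u x0 a x1 z w ∧
    (beI p r)⁻¹ * (w ⬝ᵥ H652.eb (p.lam s r) K (cx K x).2.1 (KT (p.lam s r) u x1) (o - 2) x0 x1
        (a + 1) (ix (a + 1) z) *ᵥ w) ≤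
      chg p s r o K x u x0 a x1 z w + kinds p s r o K x u x0 a x1 z w ∧
    0 ≤ chg p s r o K x u x0 a x1 z w + kinds p s r o K x u x0 a x1 z w := by
  have hbe : 0 < beI p r := Real.rpow_pos_of_pos (div_pos ht (by linarith)) _
  have hbi : 0 < (beI p r)⁻¹ := inv_pos.2 hbe
  have h1 := H548.zm_nonneg ht hs hr o K x u x0 a x1 z w
  have h2 := H548.ze_nonneg ht hs hr o K x u x0 a x1 z w
  have h3 := H548.zd_nonneg ht hs hr o K x u x0 a x1 z w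
  have h4 := H548.zq_nonneg ht hs hr o K x u x0 a x1 z w
  have hk : 0 ≤ kinds p s r o K x u x0 a x1 z w := by
    unfold H548.kinds
    linarith
  have h5 := dot_nn (H652.ah (p.lam s r) K (cx K x).2.1 (KT (p.lam s r) u x1) (o - 2) x0 x1 a
        (ix (a + 1) z) *ᵥ w)
  have h6 := mul_nonneg hbi.le h5
  have h7 := mul_nonneg hbi.le h2
  unfold H548.chg
  refine ⟨?_, ?_, ?_⟩ <;> nlinarith

theorem vN_nonneg (ht : 0 < p.t) (hs : 0 < s) (hr : 1 ≤ r) (j q n : ℕ) (F1 F3 : ℕ → Pt → ℝ)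
    (g : ℤ → ℤ → ℝ) (Q1 Q2 Q3 : ℕ → Pt → Prop) :
    0 ≤ vN j q ι p n ez F1 F2 F3 o K x s r U g u v Q1 Q2 Q3 x0 := by
  unfold H548.vN
  exact sum_nonneg fun k _ => sum_nonneg fun x1 _ => sum_nonneg fun z _ =>
    (chg_D ht hs hr (k + q) x1 z _).2.2

theorem oN_nonneg (ht : 0 < p.t) (hs : 0 < s) (hr : 1 ≤ r) (q n : ℕ) (F1 F3 : ℕ → Pt → ℝ)
    (g : ℤ → ℤ → ℝ) (Q1 Q2 Q3 : ℕ → Pt → Prop) :
    0 ≤ oN q ι p n ez F1 F2 F3 o K x s r U g u v Q1 Q2 Q3 x0 := by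
  unfold H548.oN
  exact sum_nonneg fun x1 _ => sum_nonneg fun z _ => H302.eT_nn ht hs hr _ _ _ _

theorem bN_nonneg (ht : 0 < p.t) (hs : 0 < s) (hr : 1 ≤ r) (q n : ℕ) (F1 F3 : ℕ → Pt → ℝ)
    (g : ℤ → ℤ → ℝ) (Q1 Q2 Q3 : ℕ → Pt → Prop) :
    0 ≤ bN q ι p n ez F1 F2 F3 o K x s r U g u v Q1 Q2 Q3 x0 := by
  unfold H302.bN
  refine sum_nonneg fun k _ => sum_nonneg fun x1 _ => sum_nonneg fun z _ => ?_
  split_ifs
  · exact H302.eT_nn ht hs hr _ _ _ _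
  · exact le_rfl

theorem cRB_nonneg (ht : 0 < p.t) (hs : 0 < s) (hr : 1 ≤ r) (n : ℕ) (F1 F3 : ℕ → Pt → ℝ)
    (g : ℤ → ℤ → ℝ) (Q1 Q2 Q3 : ℕ → Pt → Prop) :
    0 ≤ fCRB mB ι p n ez F1 F2 F3 o K x s r U g u v Q1 Q2 Q3 x0 := by
  unfold H989.CrB.fCRB
  refine sum_nonneg fun k _ => sum_nonneg fun x1 _ => sum_nonneg fun z _ => ?_
  split_ifs
  · rw [H989.CrB.wE_eT]
    exact H302.eT_nn ht hs hr _ _ _ _
  · exact le_rfl

theorem fB_nonneg (ht : 0 < p.t) (hs : 0 < s) (hr : 1 ≤ r) (n : ℕ) (F1 F3 : ℕ → Pt → ℝ)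
    (g : ℤ → ℤ → ℝ) (Q1 Q2 Q3 : ℕ → Pt → Prop) :
    0 ≤ fB ι p n ez F1 F2 F3 o K x s r U g u v Q1 Q2 Q3 x0 := by
  have hbe : 0 < beI p r := Real.rpow_pos_of_pos (div_pos ht (by linarith)) _
  have hl : 0 < p.lam s r := H401.Num.lam_pos (p := p) ht hs hr
  unfold fB
  exact add_nonneg (H652.dB_nonneg x x0) (H652.payS_nonneg hbe hl _)

/-- the six parts of `fE` -/
theorem fE_parts (ht : 0 < p.t) (hs : 0 < s) (hr : 1 ≤ r) (n : ℕ) (F1 F3 : ℕ → Pt → ℝ)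
    (g : ℤ → ℤ → ℝ) (Q1 Q2 Q3 : ℕ → Pt → Prop) :
    0 ≤ fE ι p n ez F1 F2 F3 o K x s r U g u v Q1 Q2 Q3 x0 ∧
    ∑ l ∈ range (K + 1), (3 / 4 : ℝ) ^ l *
      vN 0 l ι p n ez F1 F2 F3 o K x s r U g u v Q1 Q2 Q3 x0 ≤
      fE ι p n ez F1 F2 F3 o K x s r U g u v Q1 Q2 Q3 x0 ∧
    ∑ l ∈ range (K + 1), (3 / 4 : ℝ) ^ l *
      bN (l + 1) ι p n ez F1 F2 F3 o K x s r U g u v Q1 Q2 Q3 x0 ≤
      fE ι p n ez F1 F2 F3 o K x s r U g u v Q1 Q2 Q3 x0 ∧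
    oN 0 ι p n ez F1 F2 F3 o K x s r U g u v Q1 Q2 Q3 x0 ≤
      fE ι p n ez F1 F2 F3 o K x s r U g u v Q1 Q2 Q3 x0 ∧
    vN 1 0 ι p n ez F1 F2 F3 o K x s r U g u v Q1 Q2 Q3 x0 ≤
      fE ι p n ez F1 F2 F3 o K x s r U g u v Q1 Q2 Q3 x0 ∧
    bN 0 ι p n ez F1 F2 F3 o K x s r U g u v Q1 Q2 Q3 x0 ≤
      fE ι p n ez F1 F2 F3 o K x s r U g u v Q1 Q2 Q3 x0 ∧
    fCRB mB ι p n ez F1 F2 F3 o K x s r U g u v Q1 Q2 Q3 x0 ≤
      fE ι p n ez F1 F2 F3 o K x s r U g u v Q1 Q2 Q3 x0 := by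
  have h1 : 0 ≤ ∑ l ∈ range (K + 1), (3 / 4 : ℝ) ^ l *
      vN 0 l ι p n ez F1 F2 F3 o K x s r U g u v Q1 Q2 Q3 x0 :=
    sum_nonneg fun l _ => mul_nonneg (by positivity) (vN_nonneg ht hs hr 0 l n F1 F3 g Q1 Q2 Q3)
  have h2 : 0 ≤ ∑ l ∈ range (K + 1), (3 / 4 : ℝ) ^ l *
      bN (l + 1) ι p n ez F1 F2 F3 o K x s r U g u v Q1 Q2 Q3 x0 :=
    sum_nonneg fun l _ => mul_nonneg (by positivity) (bN_nonneg ht hs hr (l + 1) n F1 F3 g Q1 Q2 Q3)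
  have h3 := oN_nonneg (ez := ez) (o := o) (K := K) (x := x) (U := U) (u := u) (v := v) (F2 := F2)
    (x0 := x0) ht hs hr 0 n F1 F3 g Q1 Q2 Q3
  have h4 := vN_nonneg (ez := ez) (o := o) (K := K) (x := x) (U := U) (u := u) (v := v) (F2 := F2)
    (x0 := x0) ht hs hr 1 0 n F1 F3 g Q1 Q2 Q3
  have h5 := bN_nonneg (ez := ez) (o := o) (K := K) (x := x) (U := U) (u := u) (v := v) (F2 := F2)
    (x0 := x0) ht hs hr 0 n F1 F3 g Q1 Q2 Q3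
  have h6 := cRB_nonneg (ez := ez) (o := o) (K := K) (x := x) (U := U) (u := u) (v := v) (F2 := F2)
    (x0 := x0) ht hs hr n F1 F3 g Q1 Q2 Q3
  unfold fE
  refine ⟨?_, ?_, ?_, ?_, ?_, ?_, ?_⟩ <;> linarith

/-- the time `0` of the slot vanishes -/
theorem nmH_zero {N : ℕ} {R S : ℤ} {be : ℝ} {T : ℕ → ℤ → ℤ → Matrix ι ι ℝ}
    {c : ℕ → ℤ → ℤ → ι → ℝ} (h0 : ∀ x z, c 0 x z = 0) (q : ℕ) : nmH N R S be T c q = 0 := by
  unfold H419.WFamR.nmH H419.WFamR.Wn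
  refine sum_eq_zero fun x _ => sum_eq_zero fun w _ => ?_
  rw [h0, zero_dotProduct]

abbrev eS (p : H401.Num) (s r : ℝ) (o : ℤ) (K : ℕ) (x : Pt) (u : ℤ → ℤ → ι → ℝ) (x0 : ℤ) :
    ℕ → ℤ → ℤ → Matrix ι ι ℝ :=
  fun a x1 m => H652.eb (p.lam s r) K (cx K x).2.1 (KT (p.lam s r) u x1) (o - 2) x0 x1 (a + 1) m

abbrev dS (p : H401.Num) (s r : ℝ) (o : ℤ) (K : ℕ) (x : Pt) (u : ℤ → ℤ → ι → ℝ) (x0 : ℤ) :
    ℕ → ℤ → ℤ → Matrix ι ι ℝ :=
  fun a x1 m => H652.ah (p.lam s r) K (cx K x).2.1 (KT (p.lam s r) u x1) (o - 2) x0 x1 a m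

theorem nmD_le (ht : 0 < p.t) (hs : 0 < s) (hr : 1 ≤ r) (q n : ℕ) (F1 F3 : ℕ → Pt → ℝ)
    (g : ℤ → ℤ → ℝ) (Q1 Q2 Q3 : ℕ → Pt → Prop) :
    (beI p r)⁻¹ * nmD K (cx K x).2.2 (cx K x).1 (dS p s r o K x u x0) (cS p ez U K v F2 x0) q ≤
      vN 0 q ι p n ez F1 F2 F3 o K x s r U g u v Q1 Q2 Q3 x0 ∧
    (beI p r)⁻¹ * nmE K (cx K x).2.2 (cx K x).1 (eS p s r o K x u x0) (cS p ez U K v F2 x0) q ≤
      vN 0 q ι p n ez F1 F2 F3 o K x s r U g u v Q1 Q2 Q3 x0 := by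
  unfold H419.WFamR.nmD H419.WFamR.nmE H419.WFamR.Dn H419.WFamR.En H548.vN
  rw [← Nat.Ico_zero_eq_range]
  simp only [mul_sum]
  constructor
  · exact sum_le_sum fun k _ => sum_le_sum fun x1 _ => sum_le_sum fun z _ =>
      (chg_D ht hs hr (k + q) x1 z _).1
  · exact sum_le_sum fun k _ => sum_le_sum fun x1 _ => sum_le_sum fun z _ =>
      (chg_D ht hs hr (k + q) x1 z _).2.1

theorem nmD1_le (ht : 0 < p.t) (hs : 0 < s) (hr : 1 ≤ r) (n : ℕ) (F1 F3 : ℕ → Pt → ℝ)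
    (g : ℤ → ℤ → ℝ) (Q1 Q2 Q3 : ℕ → Pt → Prop) :
    (beI p r)⁻¹ * nmD K (cx K x).2.2 (cx K x).1 (dS p s r o K x u x0)
        (c1 K (cS p ez U K v F2 x0)) 0 ≤
      vN 1 0 ι p n ez F1 F2 F3 o K x s r U g u v Q1 Q2 Q3 x0 ∧
    (beI p r)⁻¹ * nmE K (cx K x).2.2 (cx K x).1 (eS p s r o K x u x0)
        (c1 K (cS p ez U K v F2 x0)) 0 ≤
      vN 1 0 ι p n ez F1 F2 F3 o K x s r U g u v Q1 Q2 Q3 x0 := by
  rw [H419.WFamR.nmD_c1, H419.WFamR.nmE_c1]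
  unfold H419.WFamR.Dn H419.WFamR.En H548.vN
  rw [← Nat.Ico_zero_eq_range]
  simp only [mul_sum]
  constructor
  · exact sum_le_sum fun k _ => sum_le_sum fun x1 _ => sum_le_sum fun z _ =>
      (chg_D ht hs hr (k + 0) x1 z _).1
  · exact sum_le_sum fun k _ => sum_le_sum fun x1 _ => sum_le_sum fun z _ =>
      (chg_D ht hs hr (k + 0) x1 z _).2.1

theorem nmH1_le (n : ℕ) (F1 F3 : ℕ → Pt → ℝ) (g : ℤ → ℤ → ℝ) (Q1 Q2 Q3 : ℕ → Pt → Prop) :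
    nmH K (cx K x).2.2 (cx K x).1 (beI p r) (tS p s r o K x u x0)
        (c1 K (cS p ez U K v F2 x0)) 0 ≤
      oN 0 ι p n ez F1 F2 F3 o K x s r U g u v Q1 Q2 Q3 x0 := by
  have e : c1 K (cS p ez U K v F2 x0) 0 = cS p ez U K v F2 x0 1 := by
    funext x1 z
    show cS p ez U K v F2 x0 (min (0 + 1) K) x1 z = _
    rw [H548.cS_min, H548.cS_min p ez U K v F2 x0 1,
      show min (min (0 + 1) K) K = min 1 K by omega]
  unfold H419.WFamR.nmH H419.WFamR.Wn H548.oN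
  rw [e]
  refine le_of_eq (sum_congr rfl fun x1 _ => sum_congr rfl fun z _ => ?_)
  rw [Nat.zero_min]
  rfl

/-- **The statement at one `x0` of one class.** -/
theorem pt (n : ℕ) (F1 F3 : ℕ → Pt → ℝ) (g : ℤ → ℤ → ℝ) (Q1 Q2 Q3 : ℕ → Pt → Prop) {P : ℝ}
    (ht : 0 < p.t) (ht1 : p.t ≤ 1) (he0 : 0 < p.e0) (hd1 : p.d ≤ 1)
    (ho : o = 1 ∨ o = -1) (hK : K ≤ n) (hs : 0 < s) (hr : 1 ≤ r)
    (hcls : H305.Cls K x s r P U g u v) (q2 : BSl n ez p.cP F2 Q2) (hez : 0 < ez)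
    {z : ℝ} {J : ℕ} (hz1 : gI p s r ≤ z) (hJ : (2 * cCI p s r) ^ 2 ≤ 4 ^ J * z ^ 2) :
    pBC (p.al U K) o K (cx K x) (beI p r) (p.lam s r) u (cb p s r U K u F3 Q3)
        (C1 p ez U K v F2) (tauI p s r) z x0 ≤
      2160000 * ((J : ℝ) + 1) ^ 3 *
        (√(z ^ 2 * fE ι p n ez F1 F2 F3 o K x s r U g u v Q1 Q2 Q3 x0 *
          (tauI p s r ^ 2 * fB ι p n ez F1 F2 F3 o K x s r U g u v Q1 Q2 Q3 x0)) +
        tauI p s r ^ 2 * fE ι p n ez F1 F2 F3 o K x s r U g u v Q1 Q2 Q3 x0) := by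
  have hτ : 0 < tauI p s r := tauI_pos ht hs hr
  have hth : 0 < p.th s r := H401.Num.th_pos (p := p) ht hs hr
  have hl : 0 < p.lam s r := H401.Num.lam_pos (p := p) ht hs hr
  have hy : 0 < p.t / r := div_pos ht (by linarith)
  have hbe : 0 < beI p r := Real.rpow_pos_of_pos hy _
  have hbe1 : beI p r ≤ 1 := H548.beI_le_one ht ht1 he0.le hr
  have hg : 0 < gI p s r := mul_pos (Real.rpow_pos_of_pos hy _) hτ
  have hz : 0 < z := hg.trans_le hz1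
  obtain ⟨e1, e2, e3, e4, e5, e6, e7⟩ := fE_parts (ι := ι) (p := p) (s := s) (r := r) (ez := ez)
    (o := o) (K := K) (x := x) (U := U) (u := u) (v := v) (F2 := F2) (x0 := x0) ht hs hr n F1 F3 g
    Q1 Q2 Q3
  have hB0 := fB_nonneg (ι := ι) (p := p) (s := s) (r := r) (ez := ez)
    (o := o) (K := K) (x := x) (U := U) (u := u) (v := v) (F2 := F2) (x0 := x0) ht hs hr n F1 F3 g
    Q1 Q2 Q3
  obtain ⟨E, hE⟩ : ∃ E : ℝ, E = fE ι p n ez F1 F2 F3 o K x s r U g u v Q1 Q2 Q3 x0 := ⟨_, rfl⟩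
  obtain ⟨EB, hEB⟩ : ∃ EB : ℝ, EB = fB ι p n ez F1 F2 F3 o K x s r U g u v Q1 Q2 Q3 x0 := ⟨_, rfl⟩
  rw [← hE] at e1 e2 e3 e4 e5 e6 e7 ⊢
  rw [← hEB] at hB0 ⊢
  have hd : dB p s r U K x u F3 Q3 x0 ≤ EB := by
    rw [hEB]
    unfold fB
    exact le_add_of_nonneg_right (H652.payS_nonneg hbe hl _)
  have hp : payS (beI p r) (p.lam s r) o K (cx K x) u (fun k => H652.bS p s r U K u F3 Q3 x0 k)
      x0 ≤ EB := by
    rw [hEB]
    unfold fB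
    exact le_add_of_nonneg_left (H652.dB_nonneg x x0)
  have hT : H419.Wt (tS p s r o K x u x0) (eS p s r o K x u x0) (dS p s r o K x u x0) :=
    H652.wt_Th (fun x => tr_T hl K u x) (cx K x).2.1 (o - 2) x0
  refine (H329.WinBC.pBC_cls ht hs hr ez U o K x u v F2 F3 Q3 hτ hz x0).trans ?_
  refine (le_of_eq (H74.CutBC.GW_win_cut (cx K x).2.1 (cP o x0) _ _).symm).trans ?_
  refine (H736.fix_BC2 (be := beI p r) (T := tS p s r o K x u x0) (e := eS p s r o K x u x0)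
    (d := dS p s r o K x u x0) hbe hbe1 (s := z ^ 2) (q := p.th s r ^ 2) (τ := 2)
    (pow_pos hz 2) (sq_nonneg _) (by norm_num) le_rfl hT
    (fun k x1 m => H652.Th_le_two (M := (cx K x).2.1) (tr_T hl K u x1) (o - 2) x0 x1 k m)
    (N := K) (b := H652.bS p s r U K u F3 Q3 x0)
    (c := Win.cut K (cx K x).1 (cx K x).2.2 (cS p ez U K v F2 x0))
    (Pb := PbS p s r U K u F3 Q3 x0) (Pc := Pr (cS p ez U K v F2 x0))
    (H652.PbS_off x0) (H74.CutBC.cut_row H302.pr_not)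
    (H652.bS_capk hth x0) (H652.bS_capk1 hth x0) (H652.bS_capN hth x0)
    (C := cCI p s r ^ 2) ?_ ?_ (J := J) ?_ (cc := cP o x0) (cP_pl ho x0) (E := E) (EB := EB)
    e1 hB0 ?_ ?_ ?_ ?_ ?_ ?_ ?_ ?_ ?_ ?_ ?_ ?_ ?_).trans ?_
  · intro k a n' m hka ha
    exact H74.CapBC.cut_capX ht ht1 hd1 he0.le hs hr hez hK hcls q2 x0 (by omega) (by omega)
      (by omega) n' m
  · intro k a n' m hka ha
    exact H74.CapBC.cut_capX ht ht1 hd1 he0.le hs hr hez hK hcls q2 x0 (by omega) (by omega)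
      (by omega) n' m
  · have h1 : (2 * cCI p s r) ^ 2 = 4 * cCI p s r ^ 2 := by ring
    rw [h1] at hJ
    have h2 : 0 ≤ cCI p s r ^ 2 := sq_nonneg _
    linarith
  · exact (H652.bS_hB1 x x0).trans hd
  · exact (H652.bS_hB2 x x0).trans hd
  · exact (H652.pay_hB3 (M := cx K x) hbe hl _).trans hp
  · exact (H652.pay_hB4 (M := cx K x) hbe _).trans hp
  · rw [H74.CutBC.c1_cut, H74.CutBC.nmH_cut]
    exact (nmH1_le n F1 F3 g Q1 Q2 Q3).trans e4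
  · rw [H74.CutBC.c1_cut, H74.CutBC.nmD_cut]
    exact (nmD1_le ht hs hr n F1 F3 g Q1 Q2 Q3).1.trans e5
  · rw [H74.CutBC.c1_cut, H74.CutBC.nmE_cut]
    exact (nmD1_le ht hs hr n F1 F3 g Q1 Q2 Q3).2.trans e5
  · refine le_trans (le_of_eq ?_) e7
    unfold H989.CrB.fCRB
    refine sum_congr rfl fun k hk => sum_congr rfl fun x1 hx1 => sum_congr rfl fun w hw => ?_
    rw [H74.CutBC.wE_cut (by have := (mem_Ico.1 hk).2; omega) hx1 hw]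
    rfl
  · refine le_trans (le_of_eq ?_) ((H302.Wn_bN (x := x) (u := u) ht hs hr H302.pr_ch n F1 F3 g Q1
      Q2 Q3).trans e6)
    exact sum_congr rfl fun k hk => H74.CutBC.Wn_rs_cut (by have := (mem_Ico.1 hk).2; omega) _ _ _
  · rw [H74.CutBC.nmH_cut]
    refine le_trans (le_of_eq ?_) e1
    unfold H912.wS
    exact sum_eq_zero fun q _ => by
      rw [nmH_zero (H548.cS_zero p ez U K v F2 x0), mul_zero]
  · rw [H74.CutBC.nmD_cut]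
    refine le_trans ?_ e2
    unfold H912.wS
    exact sum_le_sum fun q _ => mul_le_mul_of_nonneg_left
      (nmD_le ht hs hr q n F1 F3 g Q1 Q2 Q3).1 (by positivity)
  · rw [H74.CutBC.nmE_cut]
    refine le_trans ?_ e2
    unfold H912.wS
    exact sum_le_sum fun q _ => mul_le_mul_of_nonneg_left
      (nmD_le ht hs hr q n F1 F3 g Q1 Q2 Q3).2 (by positivity)
  · rw [H74.CutBC.nmB_cut]
    refine le_trans ?_ e3
    unfold H912.wS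
    exact sum_le_sum fun q _ => mul_le_mul_of_nonneg_left
      (H302.nmB_bN ht hs hr H302.pr_ch q n F1 F3 g Q1 Q2 Q3) (by positivity)
  · have h3 : p.th s r ^ 2 ≤ tauI p s r ^ 2 := by
      refine pow_le_pow_left₀ hth.le ?_ 2
      show p.th s r ≤ 2 * p.th s r
      linarith
    have h4 : (0 : ℝ) ≤ ((J : ℝ) + 1) ^ 3 := by positivity
    rw [show (18 : ℝ) * (120000 * ((J : ℝ) + 1) ^ 3) = 2160000 * ((J : ℝ) + 1) ^ 3 by ring]
    refine mul_le_mul_of_nonneg_left ?_ (by positivity)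
    refine add_le_add (Real.sqrt_le_sqrt ?_) (mul_le_mul_of_nonneg_right h3 e1)
    refine mul_le_mul_of_nonneg_left (mul_le_mul_of_nonneg_right h3 hB0) ?_
    exact mul_nonneg (sq_nonneg z) e1

end pt

theorem numBC : NumBC 2160000 2 := by
  refine H222.Of.numBC_of sumU_fE sumU_fB ?_
  intro ι _ _ p n ez F1 F2 F3 o K x s r U g u v Q1 Q2 Q3 ht ht1 he0 he01 hk3 hk31 hd hd1 hc he hcP hL
    ho hK hs hr hcls q1 q2 q3 hez f1 f2
  refine ⟨fun x0 => ?_, fun x0 => fB_nonneg ht hs hr n F1 F3 g Q1 Q2 Q3, ?_⟩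
  · exact (fE_parts ht hs hr n F1 F3 g Q1 Q2 Q3).1
  · intro t _ x0 _ z J hz1 _ hJ
    exact pt n F1 F3 g Q1 Q2 Q3 ht ht1 he0 hd1 ho hK hs hr hcls.toCls q2 hez hz1 hJ

/-- **The leaf of the moving pair.** -/
theorem lBCg : LBCg := lbc_end (by norm_num) (by norm_num) numBC

end

end Vale.Agent.P141.H854
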